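/-
S0170 team project, WP-A3 (independent second implementation by helper77), part 1:
the analysis estimate and the nested finite-difference evaluator (no computability here).
-/
import Crest.Agent.Helper21.BoxFlow.MixedDeriv
import Crest.Agent.Helper77.RatInst

set_option autoImplicit false
open scoped ContDiff
open Crest.AnalysisR.BoxFlow Crest.Agent.Helper21

namespace Crest.Agent.Helper77

/-! ## The one-dimensional estimate -/

/-- Derivative of a component of a differentiable field along a line. -/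
theorem hasDerivAt_line (H : Field) (hH : Differentiable ℝ H) (p v : ℝ × (Fin 3 → ℝ)) (j : Fin 3)
    (s : ℝ) :
    HasDerivAt (fun s : ℝ => H (p + s • v) j) (fderiv ℝ H (p + s • v) v j) s := by
  have h1 : HasFDerivAt H (fderiv ℝ H (p + s • v)) (p + s • v) := (hH _).hasFDerivAt
  have h2 : HasDerivAt (fun s : ℝ => p + s • v) v s := by
    simpa using ((hasDerivAt_id s).smul_const v).const_add p
  have h3 : HasDerivAt (fun s : ℝ => H (p + s • v)) (fderiv ℝ H (p + s • v) v) s :=
    h1.comp_hasDerivAt s h2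
  exact (hasDerivAt_pi.1 h3) j

/-- One forward difference approximates the directional derivative up to `h * B`, where `B`
bounds the second directional derivative. -/
theorem fd_step (G : Field) (hG : ContDiff ℝ ∞ G) (d : Fin 4) (B : ℝ) (j : Fin 3)
    (hB : ∀ p, |mixedDeriv [d, d] G p j| ≤ B) (p : ℝ × (Fin 3 → ℝ)) (h : ℝ) (hh : 0 < h) :
    |mixedDeriv [d] G p j - (G (p + h • direction d) j - G p j) / h| ≤ h * B := by
  set v := direction d with hv
  have hG1 : Differentiable ℝ G := mixedDeriv_differentiable hG []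
  have hG2 : Differentiable ℝ (mixedDeriv [d] G) := mixedDeriv_differentiable hG [d]
  -- the functions along the line
  set g : ℝ → ℝ := fun s => G (p + s • v) j with hg
  set g1 : ℝ → ℝ := fun s => mixedDeriv [d] G (p + s • v) j with hg1
  have dg : ∀ s, HasDerivAt g (g1 s) s := fun s => hasDerivAt_line G hG1 p v j s
  have dg1 : ∀ s, HasDerivAt g1 (mixedDeriv [d, d] G (p + s • v) j) s := fun s =>
    hasDerivAt_line (mixedDeriv [d] G) hG2 p v j s
  -- Lipschitz bound for `g1`
  have lip : ∀ s, |g1 s - g1 0| ≤ B * |s| := by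
    intro s
    have := Convex.norm_image_sub_le_of_norm_hasDerivWithin_le (f := g1)
      (f' := fun s => mixedDeriv [d, d] G (p + s • v) j) (s := Set.univ) (x := 0) (y := s)
      (C := B) (fun x _ => (dg1 x).hasDerivWithinAt) (fun x _ => by
        rw [Real.norm_eq_abs]; exact hB _) convex_univ (Set.mem_univ _) (Set.mem_univ _)
    simpa [Real.norm_eq_abs] using this
  -- the auxiliary function
  set φ : ℝ → ℝ := fun s => g s - s * g1 0 with hφ
  have dφ : ∀ s, HasDerivAt φ (g1 s - g1 0) s := by
    intro s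
    have h1 : HasDerivAt (fun s : ℝ => s * g1 0) (g1 0) s := by
      simpa using (hasDerivAt_id s).mul_const (g1 0)
    exact (dg s).sub h1
  have key : |φ h - φ 0| ≤ B * h * |h - 0| := by
    have := Convex.norm_image_sub_le_of_norm_hasDerivWithin_le (f := φ)
      (f' := fun s => g1 s - g1 0) (s := Set.Icc 0 h) (x := 0) (y := h)
      (C := B * h) (fun x _ => (dφ x).hasDerivWithinAt) (fun x hx => by
        rw [Real.norm_eq_abs]
        refine (lip x).trans ?_
        have hB0 : 0 ≤ B := (abs_nonneg _).trans (hB p)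
        rw [abs_of_nonneg hx.1]
        exact mul_le_mul_of_nonneg_left hx.2 hB0) (convex_Icc 0 h)
      (Set.left_mem_Icc.2 hh.le) (Set.right_mem_Icc.2 hh.le)
    simpa [Real.norm_eq_abs] using this
  have e0 : g 0 = G p j := by simp [hg]
  have e1 : g1 0 = mixedDeriv [d] G p j := by simp [hg1]
  have eh : g h = G (p + h • direction d) j := by simp [hg, hv]
  have hφh : φ h - φ 0 = g h - g 0 - h * g1 0 := by simp [hφ]; ring
  rw [hφh, e0, e1, eh, sub_zero, abs_of_pos hh] at key
  have : mixedDeriv [d] G p j - (G (p + h • direction d) j - G p j) / h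
      = -((G (p + h • direction d) j - G p j - h * mixedDeriv [d] G p j) / h) := by
    field_simp
    ring
  rw [this, abs_neg, abs_div, abs_of_pos hh, div_le_iff₀ hh]
  calc |G (p + h • direction d) j - G p j - h * mixedDeriv [d] G p j| ≤ B * h * h := key
    _ = h * B * h := by ring

/-! ## Rational points and the nested finite-difference approximant -/

/-- Rational space-time points. -/
abbrev QPt : Type := ℚ × (Fin 3 → ℚ)

/-- The real point of a rational point. -/
def toR (x : QPt) : ℝ × (Fin 3 → ℝ) := ((x.1 : ℝ), ratPoint x.2)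

/-- Shift a rational point by `h` in the space-time direction `d`. -/
def shiftQ (d : Fin 4) (h : ℚ) (x : QPt) : QPt :=
  (x.1 + (if d = 0 then h else 0), fun j => x.2 j + (if d = j.succ then h else 0))

theorem toR_shiftQ (d : Fin 4) (h : ℚ) (x : QPt) :
    toR (shiftQ d h x) = toR x + (h : ℝ) • direction d := by
  rcases Fin.eq_zero_or_eq_succ d with hd | ⟨i, hd⟩
  · subst hd
    ext
    · simp [toR, shiftQ, direction]
    · rename_i j
      simp [toR, shiftQ, direction, ratPoint, Ne.symm (Fin.succ_ne_zero j)]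
  · subst hd
    ext
    · simp [toR, shiftQ, direction, Fin.succ_ne_zero]
    · rename_i j
      by_cases hij : i = j
      · subst hij
        simp [toR, shiftQ, direction, ratPoint, Fin.succ_ne_zero]
      · simp [toR, shiftQ, direction, ratPoint, Fin.succ_ne_zero, hij, Ne.symm hij]

/-- The number of steps per unit (inverse step size) used at one level. -/
def fdN (bound : List (Fin 4) → ℕ) (d : Fin 4) (ds : List (Fin 4)) (n : ℕ) : ℕ :=
  2 * (n + 1) * (bound (d :: d :: ds) + 1)

/-- The precision requested from the next level. -/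
def fdPrec (bound : List (Fin 4) → ℕ) (d : Fin 4) (ds : List (Fin 4)) (n : ℕ) : ℕ :=
  4 * (n + 1) * fdN bound d ds n - 1

/-- The nested finite-difference approximant of `mixedDeriv ds F` at a rational point, built from
approximate values `E₀`. -/
def fdA (E₀ : QPt × ℕ → (Fin 3 → ℚ)) (bound : List (Fin 4) → ℕ) :
    List (Fin 4) → QPt → ℕ → (Fin 3 → ℚ)
  | [], x, n => E₀ (x, n)
  | d :: ds, x, n =>
      (fdN bound d ds n : ℚ) •
        (fdA E₀ bound ds (shiftQ d (1 / (fdN bound d ds n : ℚ)) x) (fdPrec bound d ds n)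
          - fdA E₀ bound ds x (fdPrec bound d ds n))

theorem fdN_pos (bound : List (Fin 4) → ℕ) (d : Fin 4) (ds : List (Fin 4)) (n : ℕ) :
    0 < fdN bound d ds n := by
  unfold fdN; positivity

theorem fdPrec_add_one (bound : List (Fin 4) → ℕ) (d : Fin 4) (ds : List (Fin 4)) (n : ℕ) :
    fdPrec bound d ds n + 1 = 4 * (n + 1) * fdN bound d ds n := by
  have := fdN_pos bound d ds n
  have h : 0 < 4 * (n + 1) * fdN bound d ds n := by positivity
  unfold fdPrec
  omega

/-- The error bound of the nested approximant. -/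
theorem fdA_error (F : Field) (hF : ContDiff ℝ ∞ F)
    (E₀ : QPt × ℕ → (Fin 3 → ℚ))
    (hval : ∀ (x : QPt) (n : ℕ) (j : Fin 3),
      |F (toR x) j - (E₀ (x, n) j : ℝ)| ≤ 1 / ((n : ℝ) + 1))
    (bound : List (Fin 4) → ℕ)
    (hbound : ∀ (ds : List (Fin 4)) (p : ℝ × (Fin 3 → ℝ)) (j : Fin 3),
      |mixedDeriv ds F p j| ≤ (bound ds : ℝ)) :
    ∀ (ds : List (Fin 4)) (x : QPt) (n : ℕ) (j : Fin 3),
      |mixedDeriv ds F (toR x) j - (fdA E₀ bound ds x n j : ℝ)| ≤ 1 / ((n : ℝ) + 1) := by
  intro ds
  induction ds with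
  | nil => intro x n j; exact hval x n j
  | cons d ds ih =>
    intro x n j
    set N := fdN bound d ds n with hN
    set n' := fdPrec bound d ds n with hn'
    have hNpos : (0 : ℝ) < (N : ℝ) := by exact_mod_cast fdN_pos bound d ds n
    have hn1 : (0 : ℝ) < (n : ℝ) + 1 := by positivity
    set G := mixedDeriv ds F with hG
    have hGs : ContDiff ℝ ∞ G := mixedDeriv_contDiff hF ds
    set B : ℝ := (bound (d :: d :: ds) : ℝ) with hBdef
    have hB0 : 0 ≤ B := Nat.cast_nonneg _
    have hBb : ∀ p, |mixedDeriv [d, d] G p j| ≤ B := fun p => hbound (d :: d :: ds) p j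
    have hstep := fd_step G hGs d B j hBb (toR x) (1 / (N : ℝ)) (by positivity)
    have e1 : mixedDeriv (d :: ds) F (toR x) j = mixedDeriv [d] G (toR x) j := rfl
    have hshift : toR (shiftQ d (1 / (N : ℚ)) x) = toR x + (1 / (N : ℝ)) • direction d := by
      rw [toR_shiftQ]; push_cast; rfl
    have ih1 := ih (shiftQ d (1 / (N : ℚ)) x) n' j
    have ih0 := ih x n' j
    rw [hshift] at ih1
    have hn'1 : ((n' : ℝ) + 1) = 4 * ((n : ℝ) + 1) * (N : ℝ) := by
      have := fdPrec_add_one bound d ds n
      rw [← hn', ← hN] at this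
      exact_mod_cast this
    rw [hn'1] at ih1 ih0
    -- unfold the approximant
    have e2 : (fdA E₀ bound (d :: ds) x n j : ℝ)
        = (N : ℝ) * ((fdA E₀ bound ds (shiftQ d (1 / (N : ℚ)) x) n' j : ℝ)
            - (fdA E₀ bound ds x n' j : ℝ)) := by
      show ((((fdN bound d ds n : ℚ) •
        (fdA E₀ bound ds (shiftQ d (1 / (fdN bound d ds n : ℚ)) x) (fdPrec bound d ds n)
          - fdA E₀ bound ds x (fdPrec bound d ds n))) j : ℚ) : ℝ) = _
      rw [Pi.smul_apply, Pi.sub_apply, smul_eq_mul]
      push_cast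
      rfl
    rw [e1, e2]
    set a1 : ℝ := (fdA E₀ bound ds (shiftQ d (1 / (N : ℚ)) x) n' j : ℝ) with ha1
    set a0 : ℝ := (fdA E₀ bound ds x n' j : ℝ) with ha0
    set g1 : ℝ := G (toR x + (1 / (N : ℝ)) • direction d) j with hg1
    set g0 : ℝ := G (toR x) j with hg0
    set D : ℝ := mixedDeriv [d] G (toR x) j with hD
    -- pieces
    have hstep' : |D - (N : ℝ) * (g1 - g0)| ≤ 1 / (2 * ((n : ℝ) + 1)) := by
      have h1 : (g1 - g0) / (1 / (N : ℝ)) = (N : ℝ) * (g1 - g0) := by
        field_simp
      rw [h1] at hstep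
      refine hstep.trans ?_
      have hNval : (N : ℝ) = 2 * ((n : ℝ) + 1) * (B + 1) := by
        rw [hN, hBdef]; unfold fdN; push_cast; ring
      rw [hNval, div_mul_eq_mul_div, one_mul, div_le_div_iff₀ (by positivity) (by positivity)]
      nlinarith
    have hN1 : (N : ℝ) * (1 / (4 * ((n : ℝ) + 1) * (N : ℝ))) = 1 / (4 * ((n : ℝ) + 1)) := by
      field_simp
    have t1 : |(N : ℝ) * (g1 - a1)| ≤ 1 / (4 * ((n : ℝ) + 1)) := by
      rw [abs_mul, abs_of_pos hNpos, ← hN1]
      exact mul_le_mul_of_nonneg_left ih1 hNpos.le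
    have t0 : |(N : ℝ) * (g0 - a0)| ≤ 1 / (4 * ((n : ℝ) + 1)) := by
      rw [abs_mul, abs_of_pos hNpos, ← hN1]
      exact mul_le_mul_of_nonneg_left ih0 hNpos.le
    have split : D - (N : ℝ) * (a1 - a0)
        = (D - (N : ℝ) * (g1 - g0)) + (N : ℝ) * (g1 - a1) - (N : ℝ) * (g0 - a0) := by ring
    rw [split]
    have hsum : (1 : ℝ) / ((n : ℝ) + 1)
        = 1 / (2 * ((n : ℝ) + 1)) + 1 / (4 * ((n : ℝ) + 1)) + 1 / (4 * ((n : ℝ) + 1)) := by
      field_simp
      ring
    rw [hsum]
    exact (abs_sub _ _).trans (add_le_add ((abs_add_le _ _).trans (add_le_add hstep' t1)) t0)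

/-! ## The flattened (iterative) evaluator -/

/-- A weighted rational point. -/
abbrev Term : Type := ℚ × QPt

/-- State of the evaluator: remaining directions, current precision, current weighted points. -/
abbrev St : Type := List (Fin 4) × ℕ × List Term

/-- Replace every weighted point by the two points of its difference quotient. -/
def stepTerms (d : Fin 4) (N : ℕ) (L : List Term) : List Term :=
  L.flatMap fun cy => [(cy.1 * (N : ℚ), shiftQ d (1 / (N : ℚ)) cy.2), (-(cy.1 * (N : ℚ)), cy.2)]

/-- One step of the evaluator. -/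
def fdStep (bound : List (Fin 4) → ℕ) (s : St) : St :=
  Option.casesOn (motive := fun _ => St) s.1.head? s fun d =>
    (s.1.tail, fdPrec bound d s.1.tail s.2.1,
      stepTerms d (fdN bound d s.1.tail s.2.1) s.2.2)

theorem fdStep_cons (bound : List (Fin 4) → ℕ) (d : Fin 4) (ds : List (Fin 4)) (n : ℕ)
    (L : List Term) :
    fdStep bound (d :: ds, n, L) = (ds, fdPrec bound d ds n, stepTerms d (fdN bound d ds n) L) :=
  rfl

/-- Output of the evaluator: weighted sum of approximate values. -/
def fdOut (E₀ : QPt × ℕ → (Fin 3 → ℚ)) (s : St) : Fin 3 → ℚ :=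
  s.2.2.foldl (fun acc cy => acc + cy.1 • E₀ (cy.2, s.2.1)) 0

/-- The evaluator. -/
def fdE (E₀ : QPt × ℕ → (Fin 3 → ℚ)) (bound : List (Fin 4) → ℕ)
    (a : List (Fin 4) × QPt × ℕ) : Fin 3 → ℚ :=
  fdOut E₀ ((fdStep bound)^[a.1.length] (a.1, a.2.2, [(1, a.2.1)]))

theorem foldl_add_eq_sum {β : Type*} (f : β → (Fin 3 → ℚ)) (L : List β) (acc : Fin 3 → ℚ) :
    L.foldl (fun acc b => acc + f b) acc = acc + (L.map f).sum := by
  induction L generalizing acc with
  | nil => simp
  | cons b t ih => simp [ih, add_assoc]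

theorem fdOut_eq (E₀ : QPt × ℕ → (Fin 3 → ℚ)) (ds : List (Fin 4)) (n : ℕ) (L : List Term) :
    fdOut E₀ (ds, n, L) = (L.map fun cy => cy.1 • E₀ (cy.2, n)).sum := by
  unfold fdOut
  rw [foldl_add_eq_sum (fun cy : Term => cy.1 • E₀ (cy.2, n)) L 0, zero_add]

theorem sum_stepTerms (d : Fin 4) (N : ℕ) (f : QPt → (Fin 3 → ℚ)) (L : List Term) :
    ((stepTerms d N L).map fun cy => cy.1 • f cy.2).sum
      = (L.map fun cy => cy.1 • ((N : ℚ) • (f (shiftQ d (1 / (N : ℚ)) cy.2) - f cy.2))).sum := by
  unfold stepTerms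
  induction L with
  | nil => simp
  | cons b t ih =>
    rw [List.flatMap_cons, List.map_append, List.sum_append, ih, List.map_cons, List.sum_cons]
    congr 1
    simp only [List.map_cons, List.map_nil, List.sum_cons, List.sum_nil, add_zero]
    rw [smul_sub, smul_sub, ← mul_smul, ← mul_smul, neg_smul, sub_eq_add_neg]

/-- The flattened evaluator computes the weighted sum of the nested approximants. -/
theorem fdOut_iterate (E₀ : QPt × ℕ → (Fin 3 → ℚ)) (bound : List (Fin 4) → ℕ) :
    ∀ (ds : List (Fin 4)) (n : ℕ) (L : List Term),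
      fdOut E₀ ((fdStep bound)^[ds.length] (ds, n, L))
        = (L.map fun cy => cy.1 • fdA E₀ bound ds cy.2 n).sum := by
  intro ds
  induction ds with
  | nil =>
    intro n L
    simp only [List.length_nil, Function.iterate_zero, id_eq]
    rw [fdOut_eq]
    rfl
  | cons d ds ih =>
    intro n L
    rw [List.length_cons, Function.iterate_succ_apply, fdStep_cons, ih,
      sum_stepTerms d (fdN bound d ds n) (fun y => fdA E₀ bound ds y (fdPrec bound d ds n)) L]
    rfl

theorem fdE_eq (E₀ : QPt × ℕ → (Fin 3 → ℚ)) (bound : List (Fin 4) → ℕ)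
    (ds : List (Fin 4)) (x : QPt) (n : ℕ) :
    fdE E₀ bound (ds, x, n) = fdA E₀ bound ds x n := by
  unfold fdE
  rw [fdOut_iterate]
  simp

end Crest.Agent.Helper77
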