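/-
S0170 team project, WP-A3 (independent second implementation by helper77), part 2:
computability of the evaluator and the final statement.
-/
import Crest.Agent.Helper77.BoxFlow.A3Core

set_option autoImplicit false
open scoped ContDiff
open Crest.AnalysisR.BoxFlow Crest.Agent.Helper21

namespace Crest.Agent.Helper77

/-! ## Computability of the evaluator -/

theorem computable_shiftQ :
    Computable (fun a : Fin 4 × ℚ × QPt => shiftQ a.1 a.2.1 a.2.2) := by
  have hd : ∀ i : Fin 4, Computable (fun a : Fin 4 × ℚ × QPt => decide (a.1 = i)) := fun i =>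
    (Primrec.eq (α := Fin 4)).decide.to_comp.comp Computable.fst (Computable.const i)
  have hh : Computable (fun a : Fin 4 × ℚ × QPt => a.2.1) := Computable.fst.comp Computable.snd
  have hx : Computable (fun a : Fin 4 × ℚ × QPt => a.2.2) := Computable.snd.comp Computable.snd
  unfold shiftQ
  refine Computable.pair ?_ ?_
  · exact ratCoreC.add (Computable.fst.comp hx) (computable_ite (hd 0) hh (Computable.const 0))
  · refine computable_fin_lam fun j => ?_
    exact ratCoreC.add (computable_fin_apply (Computable.snd.comp hx) j)
      (computable_ite (hd j.succ) hh (Computable.const 0))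

theorem computable_stepTerms :
    Computable (fun a : Fin 4 × ℕ × List Term => stepTerms a.1 a.2.1 a.2.2) := by
  unfold stepTerms
  refine computable_list_flatMap (f := fun a : Fin 4 × ℕ × List Term => a.2.2)
    (g := fun (a : Fin 4 × ℕ × List Term) (cy : Term) =>
      [(cy.1 * (a.2.1 : ℚ), shiftQ a.1 (1 / (a.2.1 : ℚ)) cy.2), (-(cy.1 * (a.2.1 : ℚ)), cy.2)])
    (Computable.snd.comp Computable.snd) ?_
  have hN : Computable (fun x : (Fin 4 × ℕ × List Term) × Term => ((x.1.2.1 : ℕ) : ℚ)) :=
    ratCoreC.natCast (Computable.fst.comp (Computable.snd.comp Computable.fst))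
  have hc : Computable (fun x : (Fin 4 × ℕ × List Term) × Term => x.2.1) :=
    Computable.fst.comp Computable.snd
  have hy : Computable (fun x : (Fin 4 × ℕ × List Term) × Term => x.2.2) :=
    Computable.snd.comp Computable.snd
  have hcN : Computable (fun x : (Fin 4 × ℕ × List Term) × Term => x.2.1 * ((x.1.2.1 : ℕ) : ℚ)) :=
    ratCoreC.mul hc hN
  have hdiv : Computable (fun x : (Fin 4 × ℕ × List Term) × Term => 1 / ((x.1.2.1 : ℕ) : ℚ)) :=
    ratCoreC.div (Computable.const 1) hN
  have harg : Computable (fun x : (Fin 4 × ℕ × List Term) × Term =>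
      (x.1.1, 1 / ((x.1.2.1 : ℕ) : ℚ), x.2.2)) :=
    Computable.pair (Computable.fst.comp Computable.fst) (Computable.pair hdiv hy)
  have hsh : Computable (fun x : (Fin 4 × ℕ × List Term) × Term =>
      shiftQ x.1.1 (1 / ((x.1.2.1 : ℕ) : ℚ)) x.2.2) := by
    have h := computable_shiftQ.comp harg
    exact h
  have h2 : Computable (fun x : (Fin 4 × ℕ × List Term) × Term =>
      [((-(x.2.1 * ((x.1.2.1 : ℕ) : ℚ)), x.2.2) : Term)]) :=
    Computable.list_cons.comp (Computable.pair (ratCoreC.neg hcN) hy) (Computable.const [])
  have h1 := Computable.list_cons.comp (Computable.pair hcN hsh) h2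
  exact h1

theorem computable_fdN {bound : List (Fin 4) → ℕ} (hb : Computable bound) :
    Computable (fun a : Fin 4 × List (Fin 4) × ℕ => fdN bound a.1 a.2.1 a.2.2) := by
  unfold fdN
  exact Primrec.nat_mul.to_comp.comp
    (Primrec.nat_mul.to_comp.comp (Computable.const 2)
      (Computable.succ.comp (Computable.snd.comp Computable.snd)))
    (Computable.succ.comp (hb.comp (Computable.list_cons.comp Computable.fst
      (Computable.list_cons.comp Computable.fst (Computable.fst.comp Computable.snd)))))

theorem computable_fdPrec {bound : List (Fin 4) → ℕ} (hb : Computable bound) :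
    Computable (fun a : Fin 4 × List (Fin 4) × ℕ => fdPrec bound a.1 a.2.1 a.2.2) := by
  unfold fdPrec
  exact Primrec.nat_sub.to_comp.comp
    (Primrec.nat_mul.to_comp.comp
      (Primrec.nat_mul.to_comp.comp (Computable.const 4)
        (Computable.succ.comp (Computable.snd.comp Computable.snd)))
      (computable_fdN hb))
    (Computable.const 1)

theorem computable_fdStep {bound : List (Fin 4) → ℕ} (hb : Computable bound) :
    Computable (fdStep bound) := by
  unfold fdStep
  have htail : Computable (fun x : St × Fin 4 => x.1.1.tail) :=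
    Primrec.list_tail.to_comp.comp (Computable.fst.comp Computable.fst)
  have hn : Computable (fun x : St × Fin 4 => x.1.2.1) :=
    Computable.fst.comp (Computable.snd.comp Computable.fst)
  have hL : Computable (fun x : St × Fin 4 => x.1.2.2) :=
    Computable.snd.comp (Computable.snd.comp Computable.fst)
  have harg : Computable (fun x : St × Fin 4 => (x.2, x.1.1.tail, x.1.2.1)) :=
    Computable.pair Computable.snd (Computable.pair htail hn)
  refine Computable.option_casesOn (o := fun s : St => s.1.head?) (f := fun s : St => s)
    (g := fun (s : St) (d : Fin 4) =>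
      ((s.1.tail, fdPrec bound d s.1.tail s.2.1,
        stepTerms d (fdN bound d s.1.tail s.2.1) s.2.2) : St))
    (Primrec.list_head?.to_comp.comp Computable.fst) Computable.id ?_
  have hP : Computable (fun x : St × Fin 4 => fdPrec bound x.2 x.1.1.tail x.1.2.1) := by
    have h := (computable_fdPrec hb).comp harg
    exact h
  have hNN : Computable (fun x : St × Fin 4 => fdN bound x.2 x.1.1.tail x.1.2.1) := by
    have h := (computable_fdN hb).comp harg
    exact h
  have harg2 : Computable (fun x : St × Fin 4 =>
      (x.2, fdN bound x.2 x.1.1.tail x.1.2.1, x.1.2.2)) :=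
    Computable.pair Computable.snd (Computable.pair hNN hL)
  have hT : Computable (fun x : St × Fin 4 =>
      stepTerms x.2 (fdN bound x.2 x.1.1.tail x.1.2.1) x.1.2.2) := by
    have h := computable_stepTerms.comp harg2
    exact h
  have hfin := Computable.pair htail (Computable.pair hP hT)
  exact hfin

theorem computable_fdOut {E₀ : QPt × ℕ → (Fin 3 → ℚ)} (hE₀ : Computable E₀) :
    Computable (fdOut E₀) := by
  unfold fdOut
  refine computable_list_foldl (f := fun s : St => s.2.2) (g := fun _ : St => (0 : Fin 3 → ℚ))
    (h := fun (s : St) (p : (Fin 3 → ℚ) × Term) => p.1 + p.2.1 • E₀ (p.2.2, s.2.1))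
    (Computable.snd.comp Computable.snd) (Computable.const 0) ?_
  have hterm : Computable (fun x : St × ((Fin 3 → ℚ) × Term) => x.2.2) :=
    Computable.snd.comp Computable.snd
  exact ratCoreC.vec_add (Computable.fst.comp Computable.snd)
    (ratCoreC.vec_smul (Computable.fst.comp hterm)
      (hE₀.comp (Computable.pair (Computable.snd.comp hterm)
        (Computable.fst.comp (Computable.snd.comp Computable.fst)))))

theorem computable_fdE {E₀ : QPt × ℕ → (Fin 3 → ℚ)} (hE₀ : Computable E₀)
    {bound : List (Fin 4) → ℕ} (hb : Computable bound) : Computable (fdE E₀ bound) := by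
  unfold fdE
  refine (computable_fdOut hE₀).comp ?_
  refine computable_iterate (n := fun a : List (Fin 4) × QPt × ℕ => a.1.length)
    (init := fun a : List (Fin 4) × QPt × ℕ => ((a.1, a.2.2, [((1 : ℚ), a.2.1)]) : St))
    (step := fun (_ : List (Fin 4) × QPt × ℕ) (s : St) => fdStep bound s)
    (Computable.list_length.comp Computable.fst) ?_ ?_
  · exact Computable.pair Computable.fst (Computable.pair (Computable.snd.comp Computable.snd)
      (Computable.list_cons.comp
        (Computable.pair (Computable.const 1) (Computable.fst.comp Computable.snd))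
        (Computable.const [])))
  · exact (computable_fdStep hb).comp Computable.snd

/-! ## WP-A3 -/

/-- Effectiveness from computable approximate values at rational points and computable global
bounds for all mixed derivatives (statement = `Spec.effective_of_values_bounds`). -/
theorem effective_of_values_bounds (F : Field) (hF : ContDiff ℝ ∞ F)
    (E₀ : (ℚ × (Fin 3 → ℚ)) × ℕ → (Fin 3 → ℚ)) (hE₀ : Computable E₀)
    (hval : ∀ (t : ℚ) (q : Fin 3 → ℚ) (n : ℕ) (j : Fin 3),
      |F ((t : ℝ), ratPoint q) j - (E₀ ((t, q), n) j : ℝ)| ≤ 1 / ((n : ℝ) + 1))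
    (bound : List (Fin 4) → ℕ) (hb : Computable bound)
    (hbound : ∀ (ds : List (Fin 4)) (p : ℝ × (Fin 3 → ℝ)) (j : Fin 3),
      |mixedDeriv ds F p j| ≤ (bound ds : ℝ)) :
    Effective F := by
  refine ⟨fdE E₀ bound, bound, computable_fdE hE₀ hb, hb, ?_, hbound⟩
  intro ds t q n j
  rw [fdE_eq]
  exact fdA_error F hF E₀ (fun x n j => hval x.1 x.2 n j) bound hbound ds (t, q) n j

end Crest.Agent.Helper77
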